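import Mathlib

/-!
# P004N: rational newforms of weight two, shared definitions and frozen statements

Every module proves `theorem pfXxx : StXxx` (taking other `StYyy` as hypotheses when needed).
-/

open UpperHalfPlane CongruenceSubgroup
open scoped MatrixGroups ModularForm Manifold Real

namespace P004N

/-! ### weight two cusp forms on `Γ₀(N)`, as functions -/

/-- weight two cusp form on `Γ₀(N)` -/
structure S2 (N : ℕ) (f : ℍ → ℂ) : Prop where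
  holo : MDiff f
  slash : ∀ γ ∈ Gamma0 N, f ∣[(2 : ℤ)] γ = f
  zero : ∀ γ : SL(2, ℤ), IsZeroAtImInfty (f ∣[(2 : ℤ)] γ)

/-- `f = ∑ c n q^n` on the upper half plane -/
def QE (f : ℍ → ℂ) (c : ℕ → ℂ) : Prop :=
  ∀ z : ℍ, HasSum (fun n : ℕ => c n * Complex.exp (2 * π * Complex.I * n * z)) (f z)

/-- the relations `T_p c = a_p c` for the primes `p` not dividing `S` -/
def TE (S : ℕ) (a : ℕ → ℤ) (c : ℕ → ℂ) : Prop :=
  ∀ p : ℕ, p.Prime → ¬ p ∣ S → ∀ n : ℕ,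
    c (p * n) + (if p ∣ n then (p : ℂ) * c (n / p) else 0) = a p * c n

/-- **`f = ∑ a n q^n` is a newform of weight two on `Γ₀(N)` with integer coefficients**:
a normalised cusp form, eigenform of `T_p` for all `p ∤ N`, and every cusp form on `Γ₀(N)` with the
same eigenvalues is a multiple of `f` -/
structure RN (N : ℕ) (f : ℍ → ℂ) (a : ℕ → ℤ) : Prop where
  pos : 0 < N
  s2 : S2 N f
  qe : QE f (fun n => (a n : ℂ))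
  zero : a 0 = 0
  one : a 1 = 1
  te : TE N a (fun n => (a n : ℂ))
  uniq : ∀ (g : ℍ → ℂ) (c : ℕ → ℂ), S2 N g → QE g c → TE N a c → ∃ κ : ℂ, ∀ z, g z = κ * f z

/-! ### T1: coefficients, Atkin-Lehner involutions -/

/-- the coefficients of a newform of level `N` -/
structure Cf (N : ℕ) (a : ℕ → ℤ) : Prop where
  zero : a 0 = 0
  one : a 1 = 1
  mul : ∀ m n : ℕ, m.Coprime n → a (m * n) = a m * a n
  good : ∀ p : ℕ, p.Prime → ¬ p ∣ N → ∀ k : ℕ,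
    a (p ^ (k + 2)) = a p * a (p ^ (k + 1)) - p * a (p ^ k)
  bad : ∀ p : ℕ, p.Prime → p ∣ N → ∀ k : ℕ, a (p ^ (k + 1)) = a p * a (p ^ k)
  bad1 : ∀ p : ℕ, p.Prime → p ∣ N → ¬ p ^ 2 ∣ N → (a p) ^ 2 = 1
  bad2 : ∀ p : ℕ, p.Prime → p ^ 2 ∣ N → a p = 0

/-- Module T1a -/
def StCf : Prop := ∀ (N : ℕ) (f : ℍ → ℂ) (a : ℕ → ℤ), RN N f a → Cf N a

/-- `f` is an eigenfunction of the Atkin-Lehner involution `W_Q`, eigenvalue `ε` -/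
def ALw (N Q : ℕ) (f : ℍ → ℂ) (ε : ℝ) : Prop :=
  ∀ x y z w : ℤ, (Q * x) * (Q * w) - y * (N * z) = (Q : ℤ) → ∀ τ τ' : ℍ,
    (τ' : ℂ) = (Q * x * τ + y) / (N * z * τ + Q * w) →
    f τ' = ε * ((N * z * τ + Q * w) ^ 2 / Q) * f τ

/-- Module T1b -/
def StAL : Prop := ∀ (N : ℕ) (f : ℍ → ℂ) (a : ℕ → ℤ), RN N f a → ∀ Q R : ℕ, Q * R = N →
  Q.Coprime R → ∃ ε : ℝ, (ε = 1 ∨ ε = -1) ∧ ALw N Q f ε

/-! ### T3: Rankin-Selberg -/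

/-- the coefficients of `ζ^{(N)}(2s) ∑ λ(n)² n^{-s}`, `λ(n)² = a(n)² / n` -/
noncomputable def bN (N : ℕ) (a : ℕ → ℤ) (k : ℕ) : ℝ :=
  ∑ n ∈ (Finset.Icc 1 k).filter (fun n => n ^ 2 ∣ k ∧ n.Coprime N),
    (a (k / n ^ 2) : ℝ) ^ 2 / ((k / n ^ 2 : ℕ) : ℝ)

/-- Module T3 (a + b) -/
def StRS : Prop := ∀ (N : ℕ) (f : ℍ → ℂ) (a : ℕ → ℤ), 0 < N → S2 N f →
  QE f (fun n => (a n : ℂ)) → a 1 = 1 → ∃ V C δ : ℝ, 0 < V ∧ 0 < δ ∧ ∀ x : ℝ, 1 ≤ x →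
    |∑ k ∈ Finset.Icc 1 ⌊x⌋₊, bN N a k - V * x| ≤ C * x ^ (1 - δ)

/-- Module T3d -/
def StPow : Prop := ∀ (N : ℕ) (f : ℍ → ℂ) (a : ℕ → ℤ), RN N f a →
  ∃ C δ : ℝ, 0 < δ ∧ ∀ n : ℕ, 1 ≤ n → ((a n : ℝ)) ^ 2 ≤ C * (n : ℝ) ^ (2 - δ)

/-! ### T5: periods -/

/-- the primitive `∑ c n / n q^n` (so that `d/dz` of it is `2 π i f`) -/
noncomputable def Pr (c : ℕ → ℂ) (z : ℍ) : ℂ :=
  ∑' n : ℕ, c n / n * Complex.exp (2 * π * Complex.I * n * z)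

/-- Module T5a (Dirichlet principle): a homomorphism `Γ₀(N) → ℝ` which vanishes at the parabolic
elements is given by the real parts of the periods of a cusp form -/
def StHodge : Prop := ∀ (N : ℕ) (φ : SL(2, ℤ) → ℝ), 0 < N →
  (∀ γ ∈ Gamma0 N, ∀ δ ∈ Gamma0 N, φ (γ * δ) = φ γ + φ δ) →
  (∀ γ ∈ Gamma0 N, (∃ (g : SL(2, ℤ)) (k : ℤ),
    γ = g * ModularGroup.T ^ k * g⁻¹ ∨ γ = -(g * ModularGroup.T ^ k * g⁻¹)) → φ γ = 0) →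
  ∃ (g : ℍ → ℂ) (c : ℕ → ℂ), S2 N g ∧ QE g c ∧ c 0 = 0 ∧
    ∀ γ ∈ Gamma0 N, ∀ z : ℍ, φ γ = (Pr c (γ • z) - Pr c z).re

/-- the period lattice of `f = ∑ a n q^n` is `L` -/
def Lat (N : ℕ) (a : ℕ → ℤ) (L : PeriodPair) : Prop :=
  (∀ γ ∈ Gamma0 N, ∃ w ∈ L.lattice, ∀ z : ℍ,
    Pr (fun n => (a n : ℂ)) (γ • z) - Pr (fun n => (a n : ℂ)) z = w) ∧
  (∀ w ∈ L.lattice, ∃ γ ∈ Gamma0 N, ∀ z : ℍ,
    Pr (fun n => (a n : ℂ)) (γ • z) - Pr (fun n => (a n : ℂ)) z = w)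

/-- Module T5b -/
def StLat : Prop := ∀ (N : ℕ) (f : ℍ → ℂ) (a : ℕ → ℤ), RN N f a → ∃ L : PeriodPair, Lat N a L

/-! ### T6: the Weierstrass function of the period lattice -/

open scoped PeriodPair in
/-- Module T6a1: lattices with given invariants -/
def StLex : Prop :=
  (∀ g2 g3 : ℂ, g2 ^ 3 - 27 * g3 ^ 2 ≠ 0 → ∃ L : PeriodPair, L.g₂ = g2 ∧ L.g₃ = g3) ∧
  ∀ L : PeriodPair, L.g₂ ^ 3 - 27 * L.g₃ ^ 2 ≠ 0

/-- the universal coefficients of `℘ z = z⁻² + ∑_{n ≥ 1} wc n z^(2n)` -/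
noncomputable def wc {R : Type*} [Field R] (g2 g3 : R) : ℕ → R
  | 0 => 0
  | 1 => g2 / 20
  | 2 => g3 / 28
  | n + 3 => 3 / ((2 * (n + 3) + 3) * ((n : R) + 1)) *
      ∑ m : Fin (n + 1), wc g2 g3 (m + 1) * wc g2 g3 (n + 1 - m)

/-- Module T6a2: the expansion of `℘` at `0` -/
def StWc : Prop := ∀ L : PeriodPair, ∃ r : ℝ, 0 < r ∧ ∀ z : ℂ, z ≠ 0 → ‖z‖ < r →
  z ∉ L.lattice ∧
  HasSum (fun n : ℕ => wc L.g₂ L.g₃ n * z ^ (2 * n)) (L.weierstrassP z - 1 / z ^ 2)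

/-- Module T6a3: `℘` of a larger lattice is a rational function of `℘` -/
def StEven : Prop := ∀ L L' : PeriodPair, L.lattice ≤ L'.lattice →
  ∃ P D : Polynomial ℂ, D ≠ 0 ∧ ∀ z : ℂ, z ∉ L'.lattice →
    L'.weierstrassP z * D.eval (L.weierstrassP z) = P.eval (L.weierstrassP z)

/-- Module T6a4: the periods of `℘` -/
def StPer : Prop := ∀ (L : PeriodPair) (ω : ℂ) (U : Set ℂ), IsOpen U → U.Nonempty →
  (∀ w ∈ U, w ∉ L.lattice → w + ω ∉ L.lattice → L.weierstrassP (w + ω) = L.weierstrassP w) →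
  ω ∈ L.lattice

/-- holomorphic modular form of weight `k` on `Γ₀(N)` -/
structure Mk (N : ℕ) (k : ℤ) (A : ℍ → ℂ) : Prop where
  holo : MDiff A
  slash : ∀ γ ∈ Gamma0 N, A ∣[k] γ = A
  bdd : ∀ γ : SL(2, ℤ), IsBoundedAtImInfty (A ∣[k] γ)

/-- Module T6c: `℘ ∘ Pr` is a quotient of modular forms, the denominator of level one -/
def StQuot : Prop := ∀ (N : ℕ) (f : ℍ → ℂ) (a : ℕ → ℤ), RN N f a → ∀ L : PeriodPair, Lat N a L →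
  ∃ (k : ℕ) (A B : ℍ → ℂ), Mk N k A ∧ Mk 1 k B ∧ (∃ z, B z ≠ 0) ∧
    ∀ z : ℍ, Pr (fun n => (a n : ℂ)) z ∉ L.lattice →
      L.weierstrassP (Pr (fun n => (a n : ℂ)) z) * B z = A z

/-- Module T6b1: level one forms are combinations of forms with integer coefficients -/
def StInt : Prop := ∀ (k : ℕ) (A : ℍ → ℂ), Mk 1 k A →
  ∃ (r : ℕ) (t : Fin r → ℂ) (C : Fin r → ℍ → ℂ) (e : Fin r → ℕ → ℤ),
    (∀ i, Mk 1 k (C i) ∧ QE (C i) (fun n => (e i n : ℂ))) ∧ ∀ z, A z = ∑ i, t i * C i z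

/-- Module T6b2 (Lagrange interpolation): for every `N` there are a form `S ≠ 0` and finitely many
forms `J i` on `Γ₀(N)` with integer coefficients such that every `A S` is a combination of the
`J i` with coefficients of level one -/
def StLag : Prop := ∀ N : ℕ, 0 < N → ∃ (k₁ k₂ : ℕ) (S : ℍ → ℂ) (r : ℕ) (J : Fin r → ℍ → ℂ)
  (e : Fin r → ℕ → ℤ), Mk N (k₁ + k₂) S ∧ (∃ z, S z ≠ 0) ∧
  (∀ i, Mk N k₂ (J i) ∧ QE (J i) (fun n => (e i n : ℂ))) ∧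
  ∀ (k : ℕ) (A : ℍ → ℂ), Mk N k A → ∃ C : Fin r → ℍ → ℂ, (∀ i, Mk 1 (k + k₁) (C i)) ∧
    ∀ z, A z * S z = ∑ i, C i z * J i z

/-- Module T6d1: the fixed field of `Aut(ℂ)` -/
def StAut : Prop := ∀ z : ℂ, (∀ σ : ℂ ≃+* ℂ, σ z = z) → ∃ q : ℚ, z = q

open PowerSeries in
/-- **output of T6**: rational `g₂, g₃` and a power series `X = q² ℘(F(q))` with bounded denominators
satisfying the differential equation; `f = q f₁` -/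
def XData (a : ℕ → ℤ) : Prop := ∃ (g2 g3 : ℚ) (M : ℕ) (X : PowerSeries ℚ), M ≠ 0 ∧
  g2 ^ 3 - 27 * g3 ^ 2 ≠ 0 ∧ PowerSeries.constantCoeff X = 1 ∧
  (∀ n : ℕ, ∃ (k : ℕ) (m : ℤ), (M : ℚ) ^ k * PowerSeries.coeff n X = m) ∧
  (PowerSeries.mk (fun n => (n : ℚ) * PowerSeries.coeff n X) - 2 * X) ^ 2 =
    (PowerSeries.mk (fun n => (a (n + 1) : ℚ))) ^ 2 *
      (4 * X ^ 3 - PowerSeries.C g2 * X * PowerSeries.X ^ 4 -
        PowerSeries.C g3 * PowerSeries.X ^ 6)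

/-- Module T6 -/
def StX : Prop := ∀ (N : ℕ) (f : ℍ → ℂ) (a : ℕ → ℤ), RN N f a → XData a

/-! ### T7: Hasse's bound for large primes -/

/-- Module T7 -/
def StRam7 : Prop := ∀ a : ℕ → ℤ, XData a →
  (∃ C δ : ℝ, 0 < δ ∧ ∀ n : ℕ, 1 ≤ n → ((a n : ℝ)) ^ 2 ≤ C * (n : ℝ) ^ (2 - δ)) →
  ∃ p₀ : ℕ, ∀ p : ℕ, p.Prime → p₀ < p → (a p) ^ 2 ≤ 4 * p

/-- Ramanujan's bound at all large primes -/
def StRam : Prop := ∀ (N : ℕ) (f : ℍ → ℂ) (a : ℕ → ℤ), RN N f a →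
  ∃ p₀ : ℕ, ∀ p : ℕ, p.Prime → p₀ < p → (a p) ^ 2 ≤ 4 * p

/-- the trivial bound at the good primes -/
def StTriv : Prop := ∀ (N : ℕ) (f : ℍ → ℂ) (a : ℕ → ℤ), RN N f a →
  ∀ p : ℕ, p.Prime → ¬ p ∣ N → |a p| ≤ p

end P004N
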