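import Vale.Agent.P004N.H503.Iface
import Vale.Agent.P004H.H871.Kron

/-!
# P004N: newforms with real coefficients, their `L`-functions; frozen statements of the modules
T2 (functional equation), T3c (Rankin-Selberg inputs), T4 (order of vanishing)

`kr D n` is the Kronecker symbol `χ_D(n)` for `Fd D` (`D = 1` or a fundamental discriminant).
-/

open UpperHalfPlane CongruenceSubgroup
open scoped MatrixGroups ModularForm Manifold Real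

namespace P004N

open Vale.Agent.P004H.H871 (kr Fd)

/-- `f = ∑ a n q^n` is a normalised cusp form of weight two on `Γ₀(N)` with integer coefficients,
eigenform of `T_p` for all `p ∤ N` -/
structure EF (N : ℕ) (f : ℍ → ℂ) (a : ℕ → ℤ) : Prop where
  pos : 0 < N
  s2 : S2 N f
  qe : QE f (fun n => (a n : ℂ))
  one : a 1 = 1
  te : TE N a (fun n => (a n : ℂ))

/-! ### L-functions of real sequences -/

/-- Euler products of degree two, with a weak bound at all primes -/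
structure LDr (A : ℕ → ℝ) : Prop where
  zero : A 0 = 0
  one : A 1 = 1
  mul : ∀ m n : ℕ, m.Coprime n → A (m * n) = A m * A n
  loc : ∀ p : ℕ, p.Prime →
    ((∀ k : ℕ, A (p ^ (k + 2)) = A p * A (p ^ (k + 1)) - p * A (p ^ k)) ∧ |A p| ≤ p + 1) ∨
    ((∀ k : ℕ, A (p ^ (k + 1)) = A p * A (p ^ k)) ∧ |A p| ≤ 1)

/-- `4 ∑ A n e^{-π n u}` -/
noncomputable def THr (A : ℕ → ℝ) (u : ℝ) : ℝ := 4 * ∑' n : ℕ, A n * Real.exp (-π * n * u)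

/-- the functional equation with conductor parameter `q` (`= N / 4`) and root number `κ` -/
def FEr (A : ℕ → ℝ) (q κ : ℝ) : Prop :=
  0 < q ∧ (κ = 1 ∨ κ = -1) ∧ ∀ u : ℝ, 0 < u → THr A u = κ / (q * u ^ 2) * THr A (1 / (q * u))

/-- `L` is the entire continuation of `∑ A n n^{-s}` (with `LDr A` the series converges absolutely
for `Re s > 2`) -/
def IsLr (A : ℕ → ℝ) (L : ℂ → ℂ) : Prop :=
  Differentiable ℂ L ∧ ∀ s : ℂ, 2 < s.re → L s = ∑' n : ℕ, (A n : ℂ) / (n : ℂ) ^ s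

/-- Module T4a: continuation and uniqueness. -/
def StLentr : Prop := ∀ (A : ℕ → ℝ) (q κ : ℝ), LDr A → FEr A q κ →
  ∃ L : ℂ → ℂ, IsLr A L ∧ ∀ L', IsLr A L' → L' = L

/-- Module T4b: the order of vanishing at `1` is finite and `≪ log(3 + q)`. -/
def StLrankr : Prop := ∃ C : ℝ, 1 ≤ C ∧ ∀ (A : ℕ → ℝ) (q κ : ℝ) (L : ℂ → ℂ), LDr A →
  FEr A q κ → IsLr A L →
  analyticOrderAt L 1 ≠ ⊤ ∧ (analyticOrderNatAt L 1 : ℝ) ≤ C * Real.log (3 + q)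

/-- Module T4c: parity. -/
def StLparityr : Prop := ∀ (A : ℕ → ℝ) (q κ : ℝ) (L : ℂ → ℂ), LDr A → FEr A q κ →
  IsLr A L → (κ = 1 ↔ Even (analyticOrderNatAt L 1))

/-! ### T2 -/

/-- Module T2: the twists of a newform of level `M` by discriminants prime to `M` -/
def StFE1 : Prop := ∀ (M : ℕ) (g : ℍ → ℂ) (b : ℕ → ℝ) (ε : ℝ), NF M g b ε → ∀ D : ℤ, Fd D →
  IsCoprime (M : ℤ) D →
    FEr (fun n => b n * kr D n) (M * (D : ℝ) ^ 2 / 4) (-(ε * (kr D (-(M : ℤ)) : ℤ)))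

/-! ### T3c: Rankin-Selberg inputs for newforms with real coefficients -/

/-- Module T3c-0 -/
def StN0N : Prop := ∀ (M : ℕ) (g : ℍ → ℂ) (b : ℕ → ℝ) (ε : ℝ), NF M g b ε →
  ∃ C : ℝ, 1 ≤ C ∧ ∀ x : ℝ, 1 ≤ x → ∑ n ∈ Finset.Icc 1 ⌊x⌋₊, (b n) ^ 2 ≤ C * x ^ 2

/-- Module T3c-1 -/
def StPowN : Prop := ∀ (M : ℕ) (g : ℍ → ℂ) (b : ℕ → ℝ) (ε : ℝ), NF M g b ε →
  ∃ C δ : ℝ, 1 ≤ C ∧ 0 < δ ∧ ∀ n : ℕ, 1 ≤ n → (b n) ^ 2 ≤ C * (n : ℝ) ^ (2 - δ)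

/-- Module T3c-2 -/
def StMertN : Prop := ∀ (M : ℕ) (g : ℍ → ℂ) (b : ℕ → ℝ) (ε : ℝ), NF M g b ε →
  ∃ C : ℝ, 1 ≤ C ∧ ∀ x : ℝ, 1 ≤ x →
    |∑ p ∈ (Finset.range (⌊x⌋₊ + 1)).filter (fun p => p.Prime ∧ ¬ p ∣ M),
      ((b p) ^ 2 / p - 1) * Real.log p / p| ≤ C

/-- Module T3c-3 -/
def StN1N : Prop := ∀ (M : ℕ) (g : ℍ → ℂ) (b : ℕ → ℝ) (ε : ℝ), NF M g b ε →
  ∀ B : ℕ, B ≠ 0 → M ∣ B → ∃ C D : ℝ, 1 ≤ C ∧ ∀ x : ℝ, 1 ≤ x →
  |∑ n ∈ (Finset.Icc 1 ⌊x⌋₊).filter (fun n => Squarefree n ∧ n.Coprime B),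
    (∏ p ∈ n.primeFactors, ((b p) ^ 2 / p - 1)) / (n : ℝ) - D| ≤ C / (1 + Real.log x) ^ 2

/-! ### T9 -/

/-- Module T9: the newform attached to `f ⊗ χ_D` -/
def StNew : Prop := ∀ (N : ℕ) (f : ℍ → ℂ) (a : ℕ → ℤ), EF N f a → ∀ D : ℤ, Fd D →
  ∃ (M : ℕ) (g : ℍ → ℂ) (b : ℕ → ℝ) (ε : ℝ), NF M g b ε ∧
    (∀ p : ℕ, p.Prime → p ∣ M → p ∣ N * D.natAbs) ∧
    ∀ n : ℕ, n.Coprime (N * D.natAbs) → b n = a n * kr D n

end P004N
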