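import Vale.Agent.P004N.DefsL
import Vale.Agent.P004G.LIface
import Vale.Agent.P004E.SDefs

/-!
# P004N: frozen statements of the module T4 for a coefficient system `Crv`
(the same text is used for the fork `P004X`, with the imports changed)
-/

open Real

namespace P004N

open P004G P004E

/-- the data of the twists: real coefficients at the bad primes allowed -/
def StTFr [Crv] : Prop :=
  ∃ (k₀ : ℕ) (η : ℝ), 1 ≤ k₀ ∧ 0 < η ∧ ∀ m : ℤ, Squarefree m →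
    ∃ (A : ℕ → ℝ) (q κ : ℝ), LDr A ∧ (∀ p : ℕ, p.Prime → p ∣ bd → |A p| ≤ p + 1 - η) ∧
      FEr A q κ ∧ (∀ n : ℕ, n.Coprime bd → A n = ca n * jacobiSym m n) ∧
      |(m : ℝ)| / k₀ ≤ √q ∧ √q ≤ k₀ * |(m : ℝ)|

/-- Module T4-Z3 -/
def StVan1r : Prop := ∀ [Crv], ∀ (m : ℤ) (A : ℕ → ℝ) (q κ : ℝ) (L : ℂ → ℂ),
  LDr A → (∀ p : ℕ, p.Prime → p ∣ bd → |A p| < p + 1) → FEr A q κ → IsLr A L →
  (∀ n : ℕ, n.Coprime bd → A n = ca n * jacobiSym m n) → Van m (analyticOrderNatAt L 1)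

/-- Module T4-Z1 -/
def StZ1r : Prop := ∀ [Crv], StTFr → StFold

/-- Module T4-Z2 -/
def StZ2r : Prop := ∀ [Crv], StTFr → StVan2

/-- Module T4-S4 -/
def StFEr : Prop := ∀ [Crv], StTFr → StFE

end P004N
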